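import Mathlib

/-! `fun_prop` support for `Primrec`. -/

namespace Vale.Agent.Lib.PrimrecFP

attribute [fun_prop] Primrec

variable {α β γ σ : Type} [Primcodable α] [Primcodable β] [Primcodable γ] [Primcodable σ]

@[fun_prop] theorem p_id : Primrec (fun x : α => x) := Primrec.id
@[fun_prop] theorem p_const (x : σ) : Primrec (fun _ : α => x) := Primrec.const x
@[fun_prop] theorem p_comp {f : β → σ} {g : α → β} (hf : Primrec f) (hg : Primrec g) :
    Primrec (fun a => f (g a)) := hf.comp hg
@[fun_prop] theorem p_pair {f : α → β} {g : α → γ} (hf : Primrec f) (hg : Primrec g) :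
    Primrec (fun a => (f a, g a)) := hf.pair hg
@[fun_prop] theorem p_fst {f : α → β × γ} (hf : Primrec f) : Primrec (fun a => (f a).1) :=
  Primrec.fst.comp hf
@[fun_prop] theorem p_snd {f : α → β × γ} (hf : Primrec f) : Primrec (fun a => (f a).2) :=
  Primrec.snd.comp hf
@[fun_prop] theorem p_add {f g : α → ℕ} (hf : Primrec f) (hg : Primrec g) :
    Primrec (fun a => f a + g a) := Primrec.nat_add.comp hf hg
@[fun_prop] theorem p_sub {f g : α → ℕ} (hf : Primrec f) (hg : Primrec g) :
    Primrec (fun a => f a - g a) := Primrec.nat_sub.comp hf hg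
@[fun_prop] theorem p_mul {f g : α → ℕ} (hf : Primrec f) (hg : Primrec g) :
    Primrec (fun a => f a * g a) := Primrec.nat_mul.comp hf hg
@[fun_prop] theorem p_div {f g : α → ℕ} (hf : Primrec f) (hg : Primrec g) :
    Primrec (fun a => f a / g a) := Primrec.nat_div.comp hf hg
@[fun_prop] theorem p_mod {f g : α → ℕ} (hf : Primrec f) (hg : Primrec g) :
    Primrec (fun a => f a % g a) := Primrec.nat_mod.comp hf hg
@[fun_prop] theorem p_pow {f g : α → ℕ} (hf : Primrec f) (hg : Primrec g) :
    Primrec (fun a => f a ^ g a) :=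
  (Primrec₂.unpaired'.1 Nat.Primrec.pow).comp hf hg
@[fun_prop] theorem p_cond {c : α → Bool} {f g : α → σ} (hc : Primrec c) (hf : Primrec f)
    (hg : Primrec g) : Primrec (fun a => cond (c a) (f a) (g a)) := Primrec.cond hc hf hg
@[fun_prop] theorem p_ble {f g : α → ℕ} (hf : Primrec f) (hg : Primrec g) :
    Primrec (fun a => Nat.ble (f a) (g a)) := by
  have h := (Primrec.nat_le.comp hf hg).decide
  refine h.of_eq fun a => ?_
  by_cases h : f a ≤ g a
  · simp [h, Nat.ble_eq_true_of_le h]
  · have : Nat.ble (f a) (g a) = false := by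
      cases hb : Nat.ble (f a) (g a)
      · rfl
      · exact absurd (Nat.le_of_ble_eq_true hb) h
    simp [h, this]
@[fun_prop] theorem p_beq {f g : α → ℕ} (hf : Primrec f) (hg : Primrec g) :
    Primrec (fun a => Nat.beq (f a) (g a)) := by
  have h := (Primrec.eq.comp hf hg).decide
  refine h.of_eq fun a => ?_
  by_cases h : f a = g a
  · simp [h, Nat.beq_refl]
  · have : Nat.beq (f a) (g a) = false := by
      cases hb : Nat.beq (f a) (g a)
      · rfl
      · exact absurd (Nat.eq_of_beq_eq_true hb) h
    simp [h, this]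
@[fun_prop] theorem p_cons {f : α → β} {g : α → List β} (hf : Primrec f) (hg : Primrec g) :
    Primrec (fun a => f a :: g a) := Primrec.list_cons.comp hf hg
@[fun_prop] theorem p_append {f g : α → List β} (hf : Primrec f) (hg : Primrec g) :
    Primrec (fun a => f a ++ g a) := Primrec.list_append.comp hf hg
@[fun_prop] theorem p_map {f : α → List β} {g : α → β → σ} (hf : Primrec f)
    (hg : Primrec (fun p : α × β => g p.1 p.2)) :
    Primrec (fun a => List.map (g a) (f a)) := Primrec.list_map hf hg
@[fun_prop] theorem p_flatMap {f : α → List β} {g : α → β → List σ} (hf : Primrec f)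
    (hg : Primrec (fun p : α × β => g p.1 p.2)) :
    Primrec (fun a => List.flatMap (g a) (f a)) := Primrec.list_flatMap hf hg
@[fun_prop] theorem p_foldr {f : α → List β} {g : α → σ} {h : α → β → σ → σ} (hf : Primrec f)
    (hg : Primrec g) (hh : Primrec (fun p : α × β × σ => h p.1 p.2.1 p.2.2)) :
    Primrec (fun a => List.foldr (h a) (g a) (f a)) :=
  Primrec.list_foldr (h := fun a p => h a p.1 p.2) hf hg hh
@[fun_prop] theorem p_range {f : α → ℕ} (hf : Primrec f) :
    Primrec (fun a => List.range (f a)) := Primrec.list_range.comp hf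
@[fun_prop] theorem p_length {f : α → List β} (hf : Primrec f) :
    Primrec (fun a => List.length (f a)) := Primrec.list_length.comp hf
@[fun_prop] theorem p_getD {f : α → List β} {g : α → ℕ} (d : β) (hf : Primrec f)
    (hg : Primrec g) : Primrec (fun a => List.getD (f a) (g a) d) :=
  (Primrec.list_getD d).comp hf hg
@[fun_prop] theorem p_some {f : α → β} (hf : Primrec f) :
    Primrec (fun a => some (f a)) := Primrec.option_some.comp hf

example : Primrec (fun p : (ℕ × ℕ × ℕ) × (ℕ × ℕ × ℕ) =>
    ((p.1.1 * p.2.1 + p.1.2.1 * p.2.2.1, p.1.1 * p.2.2.1 + p.1.2.1 * p.2.1,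
      (p.1.2.2 + 1) * (p.2.2.2 + 1) - 1) : ℕ × ℕ × ℕ)) := by fun_prop

example : Primrec (fun p : List (ℕ × ℕ) × ℕ =>
    (p.1.map (fun x => (x.1 + p.2, [x.2]))).foldr (fun a b => cond (Nat.ble a.1 b) a.1 (b + p.2)) 0) := by
  fun_prop

end Vale.Agent.Lib.PrimrecFP
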